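import Vale.Agent.P284.H894.AE.Spec
import Mathlib.Analysis.Calculus.BumpFunction.FiniteDimension
import Mathlib.MeasureTheory.Integral.Prod
import Mathlib.MeasureTheory.Integral.Bochner.ContinuousLinearMap
import Mathlib.Analysis.SpecialFunctions.Integrals.Basic

/-!
# P284, theorem AE (helper446): energy of subharmonic functions on the disc (second half of AE1b)
-/

open scoped Topology Real
open Filter Set Metric MeasureTheory

noncomputable section

namespace Vale.Agent.P284.H446.AE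

/-- the point of the unit circle -/
def cp (θ : ℝ) : ℂ := Complex.exp (θ * Complex.I)

theorem norm_cp (θ : ℝ) : ‖cp θ‖ = 1 := Complex.norm_exp_ofReal_mul_I θ

theorem continuous_cp : Continuous cp := by
  unfold cp
  fun_prop

theorem cp_eq (θ : ℝ) : cp θ = (Real.cos θ) • (1 : ℂ) + (Real.sin θ) • Complex.I := by
  unfold cp
  rw [Complex.exp_mul_I, ← Complex.ofReal_cos, ← Complex.ofReal_sin]
  simp

theorem circleAverage_cp (f : ℂ → ℝ) (z : ℂ) (ρ : ℝ) :
    Real.circleAverage f z ρ = (2 * π)⁻¹ * ∫ θ in Ioc (0 : ℝ) (2 * π), f (z + ρ * cp θ) := by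
  rw [Real.circleAverage_def, intervalIntegral.integral_of_le (by positivity)]
  rfl

theorem apply_cp (L : ℂ →L[ℝ] ℝ) (θ : ℝ) :
    L (cp θ) = Real.cos θ * L 1 + Real.sin θ * L Complex.I := by
  rw [cp_eq, map_add, map_smul, map_smul, smul_eq_mul, smul_eq_mul]

theorem integral_cp (L : ℂ →L[ℝ] ℝ) : ∫ θ in Ioc (0 : ℝ) (2 * π), L (cp θ) = 0 := by
  rw [← intervalIntegral.integral_of_le (by positivity)]
  simp only [apply_cp]
  have i1 : IntervalIntegrable (fun θ : ℝ => Real.cos θ * L 1) volume 0 (2 * π) :=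
    (by fun_prop : Continuous fun θ : ℝ => Real.cos θ * L 1).intervalIntegrable _ _
  have i2 : IntervalIntegrable (fun θ : ℝ => Real.sin θ * L Complex.I) volume 0 (2 * π) :=
    (by fun_prop : Continuous fun θ : ℝ => Real.sin θ * L Complex.I).intervalIntegrable _ _
  rw [intervalIntegral.integral_add i1 i2, intervalIntegral.integral_mul_const,
    intervalIntegral.integral_mul_const, integral_cos, integral_sin]
  simp

theorem integral_cp_sq (L : ℂ →L[ℝ] ℝ) :
    ∫ θ in Ioc (0 : ℝ) (2 * π), L (cp θ) ^ 2 = π * (L 1 ^ 2 + L Complex.I ^ 2) := by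
  rw [← intervalIntegral.integral_of_le (by positivity)]
  have h : ∀ θ : ℝ, L (cp θ) ^ 2 = L 1 ^ 2 * Real.cos θ ^ 2 +
      2 * L 1 * L Complex.I * (Real.sin θ * Real.cos θ) + L Complex.I ^ 2 * Real.sin θ ^ 2 := by
    intro θ
    rw [apply_cp]
    ring
  simp only [h]
  have i1 : IntervalIntegrable (fun θ : ℝ => L 1 ^ 2 * Real.cos θ ^ 2) volume 0 (2 * π) :=
    (by fun_prop : Continuous fun θ : ℝ => L 1 ^ 2 * Real.cos θ ^ 2).intervalIntegrable _ _
  have i2 : IntervalIntegrable (fun θ : ℝ => 2 * L 1 * L Complex.I * (Real.sin θ * Real.cos θ))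
      volume 0 (2 * π) :=
    (by fun_prop : Continuous fun θ : ℝ =>
      2 * L 1 * L Complex.I * (Real.sin θ * Real.cos θ)).intervalIntegrable _ _
  have i3 : IntervalIntegrable (fun θ : ℝ => L Complex.I ^ 2 * Real.sin θ ^ 2) volume 0 (2 * π) :=
    (by fun_prop : Continuous fun θ : ℝ => L Complex.I ^ 2 * Real.sin θ ^ 2).intervalIntegrable _ _
  rw [intervalIntegral.integral_add (i1.add i2) i3, intervalIntegral.integral_add i1 i2,
    intervalIntegral.integral_const_mul, intervalIntegral.integral_const_mul,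
    intervalIntegral.integral_const_mul, integral_cos_sq, integral_sin_sq, integral_sin_mul_cos₁]
  simp
  ring

theorem norm_sq_le (L : ℂ →L[ℝ] ℝ) : ‖L‖ ^ 2 ≤ L 1 ^ 2 + L Complex.I ^ 2 := by
  have h0 : 0 ≤ L 1 ^ 2 + L Complex.I ^ 2 := by positivity
  have h1 : ‖L‖ ≤ √(L 1 ^ 2 + L Complex.I ^ 2) := by
    refine L.opNorm_le_bound (Real.sqrt_nonneg _) fun z => ?_
    have h2 : z = z.re • (1 : ℂ) + z.im • Complex.I := by
      simp
    have h3 : L z = z.re * L 1 + z.im * L Complex.I := by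
      conv_lhs => rw [h2]
      rw [map_add, map_smul, map_smul, smul_eq_mul, smul_eq_mul]
    rw [h3, Real.norm_eq_abs]
    refine abs_le_of_sq_le_sq ?_ (by positivity)
    rw [mul_pow, Real.sq_sqrt h0, Complex.sq_norm, Complex.normSq_apply]
    nlinarith [sq_nonneg (z.re * L Complex.I - z.im * L 1)]
  calc ‖L‖ ^ 2 ≤ √(L 1 ^ 2 + L Complex.I ^ 2) ^ 2 := by
        gcongr
    _ = _ := Real.sq_sqrt h0

theorem taylor2 {b : ℂ → ℝ} (hb : ContDiff ℝ 2 b) (hc : HasCompactSupport b) :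
    ∃ C : ℝ, 0 ≤ C ∧ ∀ z h, b (z + h) ≤ b z + fderiv ℝ b z h + C * ‖h‖ ^ 2 := by
  obtain ⟨K, hK⟩ := (hb.fderiv_right (m := 1) (by norm_num)).lipschitzWith_of_hasCompactSupport
    (hc.fderiv ℝ) one_ne_zero
  refine ⟨K, K.2, fun z h => ?_⟩
  have h1 := Convex.norm_image_sub_le_of_norm_hasFDerivWithin_le' (f := b) (f' := fderiv ℝ b)
    (φ := fderiv ℝ b z) (C := K * ‖h‖) (s := closedBall z ‖h‖) (x := z) (y := z + h)
    (fun x _ => (hb.differentiable (by norm_num) x).hasFDerivAt.hasFDerivWithinAt)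
    (fun x hx => by
      have h2 := hK.dist_le_mul x z
      rw [dist_eq_norm, dist_eq_norm] at h2
      rw [mem_closedBall, dist_eq_norm] at hx
      exact h2.trans (mul_le_mul_of_nonneg_left hx K.2)) (convex_closedBall _ _)
    (mem_closedBall_self (norm_nonneg _)) (by simp)
  rw [add_sub_cancel_left, Real.norm_eq_abs] at h1
  have h3 := le_of_abs_le h1
  nlinarith

/-- the product measure -/
def PM : Measure (ℂ × ℝ) := (volume : Measure ℂ).prod (volume.restrict (Ioc (0 : ℝ) (2 * π)))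

theorem intP {H : ℂ → ℝ → ℝ} (hH : Continuous (Function.uncurry H)) {T : ℝ}
    (h0 : ∀ z θ, z ∉ closedBall (0 : ℂ) T → H z θ = 0) : Integrable (Function.uncurry H) PM := by
  have h1 : PM = ((volume : Measure ℂ).prod (volume : Measure ℝ)).restrict
      (univ ×ˢ Ioc (0 : ℝ) (2 * π)) := by
    rw [PM, ← Measure.prod_restrict, Measure.restrict_univ]
  rw [h1]
  have h2 : IntegrableOn (Function.uncurry H) (closedBall (0 : ℂ) T ×ˢ Icc (0 : ℝ) (2 * π))
      ((volume : Measure ℂ).prod (volume : Measure ℝ)) :=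
    hH.continuousOn.integrableOn_compact ((isCompact_closedBall _ _).prod isCompact_Icc)
  refine h2.of_forall_sdiff_eq_zero (MeasurableSet.univ.prod measurableSet_Ioc) ?_
  rintro ⟨z, θ⟩ ⟨⟨-, hθ⟩, hn⟩
  refine h0 z θ fun hz => hn ⟨hz, ?_⟩
  exact Ioc_subset_Icc_self hθ

/-- the inequality at radius `ρ` -/
theorem step {R : ℝ} (b : ContDiffBump (0 : ℂ)) (hbo : b.rOut < R)
    {C : ℝ} (hC : ∀ z h, b (z + h) ≤ b z + fderiv ℝ b z h + C * ‖h‖ ^ 2) (hC0 : 0 ≤ C)
    {f : ℂ → ℝ} {M : ℝ} (hf : Continuous f) (hfc : HasCompactSupport f)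
    (hfM : ∀ z, 0 ≤ f z ∧ f z ≤ M) {ρ : ℝ} (hρ : 0 < ρ) (hρ1 : ρ < 1)
    (hsub : ∀ z ∈ ball (0 : ℂ) R, f z ≤ Real.circleAverage f z ρ) :
    ∫ q, b q.1 * (f (q.1 + ρ * cp q.2) - f q.1) ^ 2 ∂PM ≤
      2 * π * C * ρ ^ 2 * M ^ 2 * (volume (closedBall (0 : ℂ) (R + 1))).toReal := by
  have hcp := continuous_cp
  have hbc : Continuous b := b.continuous
  have hb0 : ∀ z, z ∉ ball (0 : ℂ) R → b z = 0 := by
    intro z hz
    refine b.zero_of_le_dist ?_
    rw [mem_ball, not_lt] at hz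
    linarith
  obtain ⟨T, hT⟩ := hfc.isBounded.subset_closedBall (0 : ℂ)
  have hf0 : ∀ z, z ∉ closedBall (0 : ℂ) T → f z = 0 := by
    intro z hz
    by_contra h
    exact hz (hT (subset_tsupport f h))
  -- the function after translation
  set G : ℂ → ℝ → ℝ := fun z θ => f z ^ 2 * (b (z - ρ * cp θ) - b z) -
    2 * (b z * f z * (f (z + ρ * cp θ) - f z)) with hG
  have hGi : Integrable (Function.uncurry G) PM := by
    refine intP (T := T) (by rw [hG]; unfold Function.uncurry; fun_prop) fun z θ hz => ?_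
    simp only [hG, hf0 z hz]
    ring
  have hFi : Integrable (Function.uncurry fun z θ => b z * (f (z + ρ * cp θ) - f z) ^ 2) PM := by
    refine intP (T := R) (by unfold Function.uncurry; fun_prop) fun z θ hz => ?_
    rw [hb0 z fun h => hz (ball_subset_closedBall h)]
    ring
  have h1 : ∫ q, b q.1 * (f (q.1 + ρ * cp q.2) - f q.1) ^ 2 ∂PM =
      ∫ θ in Ioc (0 : ℝ) (2 * π), ∫ z : ℂ, b z * (f (z + ρ * cp θ) - f z) ^ 2 :=
    integral_prod_symm _ hFi
  have h2 : ∀ θ : ℝ, ∫ z : ℂ, b z * (f (z + ρ * cp θ) - f z) ^ 2 = ∫ z : ℂ, G z θ := by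
    intro θ
    have e1 : ∫ z : ℂ, b z * f (z + ρ * cp θ) ^ 2 = ∫ z : ℂ, b (z - ρ * cp θ) * f z ^ 2 := by
      rw [← integral_add_right_eq_self (fun z => b (z - ρ * cp θ) * f z ^ 2) (ρ * cp θ)]
      simp only [add_sub_cancel_right]
    have hcs : HasCompactSupport b := b.hasCompactSupport
    have j1 : Integrable fun z : ℂ => b z * f (z + ρ * cp θ) ^ 2 :=
      Continuous.integrable_of_hasCompactSupport (by fun_prop) hcs.mul_right
    have j2 : Integrable fun z : ℂ => b (z - ρ * cp θ) * f z ^ 2 :=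
      Continuous.integrable_of_hasCompactSupport (by fun_prop)
        (HasCompactSupport.mul_left (hfc.comp_left (g := fun x : ℝ => x ^ 2) (by simp)))
    have j3 : Integrable fun z : ℂ => b z * f z ^ 2 - 2 * (b z * f z * f (z + ρ * cp θ)) :=
      Continuous.integrable_of_hasCompactSupport (by fun_prop) (by
        have e : (fun z : ℂ => b z * f z ^ 2 - 2 * (b z * f z * f (z + ρ * cp θ))) =
            fun z => b z * (f z ^ 2 - 2 * (f z * f (z + ρ * cp θ))) := by
          funext z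
          ring
        rw [e]
        exact hcs.mul_right)
    have e2 : (fun z : ℂ => b z * (f (z + ρ * cp θ) - f z) ^ 2) = fun z =>
        b z * f (z + ρ * cp θ) ^ 2 + (b z * f z ^ 2 - 2 * (b z * f z * f (z + ρ * cp θ))) := by
      funext z
      ring
    have e3 : (fun z : ℂ => G z θ) = fun z =>
        b (z - ρ * cp θ) * f z ^ 2 + (b z * f z ^ 2 - 2 * (b z * f z * f (z + ρ * cp θ))) := by
      funext z
      simp only [hG]
      ring
    rw [e2, e3, integral_add j1 j3, integral_add j2 j3, e1]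
  rw [h1]
  simp only [h2]
  have h3 : ∫ θ in Ioc (0 : ℝ) (2 * π), ∫ z : ℂ, G z θ =
      ∫ z : ℂ, ∫ θ in Ioc (0 : ℝ) (2 * π), G z θ :=
    (integral_prod_symm _ hGi).symm.trans (integral_prod _ hGi)
  rw [h3]
  have h4 : ∀ z : ℂ, ∫ θ in Ioc (0 : ℝ) (2 * π), G z θ ≤
      indicator (closedBall (0 : ℂ) (R + 1)) (fun _ => 2 * π * C * ρ ^ 2 * M ^ 2) z := by
    intro z
    have hν : (volume.restrict (Ioc (0 : ℝ) (2 * π))).real univ = 2 * π := by
      rw [measureReal_restrict_apply_univ, Real.volume_real_Ioc_of_le (by positivity), sub_zero]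
    have ic : ∀ g : ℝ → ℝ, Continuous g → Integrable g (volume.restrict (Ioc (0 : ℝ) (2 * π))) :=
      fun g hg => (hg.integrableOn_Icc).mono_set Ioc_subset_Icc_self
    by_cases hz : z ∈ closedBall (0 : ℂ) (R + 1)
    · rw [indicator_of_mem hz]
      have k1 : ∫ θ in Ioc (0 : ℝ) (2 * π), G z θ =
          f z ^ 2 * (∫ θ in Ioc (0 : ℝ) (2 * π), (b (z - ρ * cp θ) - b z)) -
          2 * (b z * f z * (∫ θ in Ioc (0 : ℝ) (2 * π), (f (z + ρ * cp θ) - f z))) := by
        rw [← integral_const_mul, ← integral_const_mul, ← integral_const_mul,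
          ← integral_sub (ic _ (by fun_prop)) (ic _ (by fun_prop))]
      have k2 : ∫ θ in Ioc (0 : ℝ) (2 * π), (b (z - ρ * cp θ) - b z) ≤ 2 * π * (C * ρ ^ 2) := by
        have e1 : ∀ θ : ℝ, b (z - ρ * cp θ) - b z ≤
            (-ρ) * fderiv ℝ b z (cp θ) + C * ρ ^ 2 := by
          intro θ
          have h := hC z (-(ρ * cp θ))
          rw [← sub_eq_add_neg, norm_neg, norm_mul, norm_cp, Complex.norm_real, Real.norm_eq_abs,
            abs_of_pos hρ, mul_one, map_neg] at h
          have e2 : fderiv ℝ b z (ρ * cp θ) = ρ * fderiv ℝ b z (cp θ) := by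
            have : (ρ : ℂ) * cp θ = ρ • cp θ := by simp
            rw [this, map_smul, smul_eq_mul]
          rw [e2] at h
          linarith
        refine (integral_mono (ic _ (by fun_prop)) (ic _ (by fun_prop)) e1).trans_eq ?_
        rw [integral_add (ic _ (by fun_prop)) (ic _ (by fun_prop)), integral_const_mul, integral_cp,
          integral_const, hν, smul_eq_mul]
        ring
      have k3 : 0 ≤ b z * f z * ∫ θ in Ioc (0 : ℝ) (2 * π), (f (z + ρ * cp θ) - f z) := by
        by_cases hzR : z ∈ ball (0 : ℂ) R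
        · refine mul_nonneg (mul_nonneg b.nonneg (hfM z).1) ?_
          have h := hsub z hzR
          rw [circleAverage_cp] at h
          rw [integral_sub (ic _ (by fun_prop)) (ic _ (by fun_prop)), integral_const, hν,
            smul_eq_mul]
          have e1 := mul_le_mul_of_nonneg_left h (by positivity : 0 ≤ 2 * π)
          rw [← mul_assoc, mul_inv_cancel₀ (by positivity), one_mul] at e1
          linarith
        · rw [hb0 z hzR, zero_mul, zero_mul]
      rw [k1]
      have k4 : f z ^ 2 ≤ M ^ 2 := by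
        have := hfM z
        gcongr
        exact this.1
        exact this.2
      have k5 : 0 ≤ 2 * π * (C * ρ ^ 2) := by positivity
      calc f z ^ 2 * (∫ θ in Ioc (0 : ℝ) (2 * π), (b (z - ρ * cp θ) - b z)) -
          2 * (b z * f z * (∫ θ in Ioc (0 : ℝ) (2 * π), (f (z + ρ * cp θ) - f z)))
          ≤ f z ^ 2 * (2 * π * (C * ρ ^ 2)) := by
            have := mul_le_mul_of_nonneg_left k2 (sq_nonneg (f z))
            linarith
        _ ≤ M ^ 2 * (2 * π * (C * ρ ^ 2)) := mul_le_mul_of_nonneg_right k4 k5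
        _ = 2 * π * C * ρ ^ 2 * M ^ 2 := by ring
    · rw [indicator_of_notMem hz]
      rw [mem_closedBall, dist_zero_right, not_le] at hz
      have k1 : ∀ θ : ℝ, G z θ = 0 := by
        intro θ
        have e1 : b z = 0 := hb0 z (by rw [mem_ball, dist_zero_right]; linarith)
        have e2 : b (z - ρ * cp θ) = 0 := by
          refine hb0 _ ?_
          rw [mem_ball, dist_zero_right, not_lt]
          have h := norm_sub_norm_le z (ρ * cp θ)
          rw [norm_mul, norm_cp, Complex.norm_real, Real.norm_eq_abs, abs_of_pos hρ, mul_one] at h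
          linarith
        simp only [hG, e1, e2]
        ring
      simp only [k1, integral_zero, le_refl]
  have h5 : ∫ z : ℂ, ∫ θ in Ioc (0 : ℝ) (2 * π), G z θ ≤
      ∫ z : ℂ, indicator (closedBall (0 : ℂ) (R + 1)) (fun _ => 2 * π * C * ρ ^ 2 * M ^ 2) z := by
    refine integral_mono hGi.integral_prod_left ?_ h4
    exact (integrable_indicator_iff measurableSet_closedBall).2
      (integrableOn_const (isCompact_closedBall _ _).measure_lt_top.ne)
  refine h5.trans_eq ?_
  rw [integral_indicator measurableSet_closedBall, setIntegral_const, smul_eq_mul, mul_comm]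
  rfl

/-- **Energy**: a bounded subharmonic function has energy bounded in terms of its bound. -/
theorem energy {r R : ℝ} (hr : 0 < r) (hrR : r < R) : ∃ K : ℝ, 0 ≤ K ∧ ∀ (f : ℂ → ℝ) (M : ℝ),
    ContDiff ℝ 1 f → HasCompactSupport f → (∀ z, 0 ≤ f z ∧ f z ≤ M) →
    (∃ δ > 0, ∀ z ∈ ball (0 : ℂ) R, ∀ ρ ∈ Ioo (0 : ℝ) δ, f z ≤ Real.circleAverage f z ρ) →
    ∫ z in ball (0 : ℂ) r, ‖fderiv ℝ f z‖ ^ 2 ≤ K * M ^ 2 := by
  let b : ContDiffBump (0 : ℂ) := ⟨r, (r + R) / 2, hr, by linarith⟩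
  have hbo : b.rOut < R := by
    show (r + R) / 2 < R
    linarith
  have hb1 : ∀ z ∈ ball (0 : ℂ) r, b z = 1 := fun z hz =>
    b.one_of_mem_closedBall (ball_subset_closedBall hz)
  have hbc : Continuous b := b.continuous
  have hb0 : ∀ z, z ∉ closedBall (0 : ℂ) R → b z = 0 := by
    intro z hz
    refine b.zero_of_le_dist ?_
    rw [mem_closedBall, not_le] at hz
    linarith
  obtain ⟨C, hC0, hC⟩ := taylor2 (b := b) (b.contDiff (n := 2)) b.hasCompactSupport
  set V : ℝ := (volume (closedBall (0 : ℂ) (R + 1))).toReal with hV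
  have hV0 : 0 ≤ V := ENNReal.toReal_nonneg
  refine ⟨2 * C * V, by positivity, ?_⟩
  rintro f M hf hfc hfM ⟨δ, hδ, hsub⟩
  have hcp := continuous_cp
  have hfcont : Continuous f := hf.continuous
  obtain ⟨L, hL⟩ := hf.lipschitzWith_of_hasCompactSupport hfc one_ne_zero
  have hfd : Continuous (fderiv ℝ f) := hf.continuous_fderiv one_ne_zero
  -- the radii
  set ε : ℝ := min (δ / 2) (1 / 2) with hε
  have hε0 : 0 < ε := lt_min (by linarith) (by norm_num)
  set ρ : ℕ → ℝ := fun j => ε * (1 / ((j : ℝ) + 1)) with hρ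
  have hρ0 : ∀ j, 0 < ρ j := fun j => by positivity
  have hρε : ∀ j, ρ j ≤ ε := by
    intro j
    have h1 : 1 / ((j : ℝ) + 1) ≤ 1 := by
      rw [div_le_one (by positivity)]
      linarith [(Nat.cast_nonneg j : (0 : ℝ) ≤ j)]
    calc ρ j ≤ ε * 1 := mul_le_mul_of_nonneg_left h1 hε0.le
      _ = ε := mul_one _
  have hρt : Tendsto ρ atTop (𝓝 0) := by
    have h1 := (tendsto_one_div_add_atTop_nhds_zero_nat (𝕜 := ℝ)).const_mul ε
    rwa [mul_zero] at h1
  have hρt' : Tendsto ρ atTop (𝓝[≠] 0) :=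
    tendsto_nhdsWithin_iff.2 ⟨hρt, Eventually.of_forall fun j => (hρ0 j).ne'⟩
  -- the bound at radius `ρ j`
  have hB : ∀ j, ∫ q, b q.1 * ((ρ j)⁻¹ * (f (q.1 + ρ j * cp q.2) - f q.1)) ^ 2 ∂PM ≤
      2 * π * C * M ^ 2 * V := by
    intro j
    have h1 := step b hbo hC hC0 hfcont hfc hfM (hρ0 j)
      (lt_of_le_of_lt ((hρε j).trans (min_le_right _ _)) (by norm_num))
      (fun z hz => hsub z hz (ρ j) ⟨hρ0 j,
        lt_of_le_of_lt ((hρε j).trans (min_le_left _ _)) (by linarith)⟩)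
    have h2 : ∫ q, b q.1 * ((ρ j)⁻¹ * (f (q.1 + ρ j * cp q.2) - f q.1)) ^ 2 ∂PM =
        (ρ j)⁻¹ ^ 2 * ∫ q, b q.1 * (f (q.1 + ρ j * cp q.2) - f q.1) ^ 2 ∂PM := by
      rw [← integral_const_mul]
      congr 1
      funext q
      ring
    rw [h2]
    have h3 := mul_le_mul_of_nonneg_left h1 (sq_nonneg (ρ j)⁻¹)
    refine h3.trans_eq ?_
    have h4 : (ρ j)⁻¹ ^ 2 * ρ j ^ 2 = 1 := by
      rw [← mul_pow, inv_mul_cancel₀ (hρ0 j).ne', one_pow]
    calc (ρ j)⁻¹ ^ 2 * (2 * π * C * ρ j ^ 2 * M ^ 2 * V)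
        = ((ρ j)⁻¹ ^ 2 * ρ j ^ 2) * (2 * π * C * M ^ 2 * V) := by ring
      _ = 2 * π * C * M ^ 2 * V := by rw [h4, one_mul]
  -- the limit
  have hlim : Tendsto (fun j => ∫ q, b q.1 * ((ρ j)⁻¹ * (f (q.1 + ρ j * cp q.2) - f q.1)) ^ 2 ∂PM)
      atTop (𝓝 (∫ q, b q.1 * (fderiv ℝ f q.1 (cp q.2)) ^ 2 ∂PM)) := by
    refine tendsto_integral_of_dominated_convergence (fun q => b q.1 * (L : ℝ) ^ 2) ?_ ?_ ?_ ?_
    · intro j
      exact Continuous.aestronglyMeasurable (by fun_prop)
    · exact intP (H := fun z _ => b z * (L : ℝ) ^ 2) (T := R)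
        (by unfold Function.uncurry; fun_prop) fun z θ hz => by rw [hb0 z hz, zero_mul]
    · intro j
      refine Eventually.of_forall fun q => ?_
      rw [Real.norm_eq_abs, abs_mul, abs_of_nonneg b.nonneg, abs_pow, abs_mul]
      refine mul_le_mul_of_nonneg_left ?_ b.nonneg
      have h1 := hL.dist_le_mul (q.1 + ρ j * cp q.2) q.1
      rw [dist_eq_norm, dist_eq_norm, add_sub_cancel_left, norm_mul, norm_cp, Complex.norm_real,
        Real.norm_eq_abs, Real.norm_eq_abs, mul_one, abs_of_pos (hρ0 j)] at h1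
      have h2 : |(ρ j)⁻¹| * |f (q.1 + ρ j * cp q.2) - f q.1| ≤ L := by
        rw [abs_inv, abs_of_pos (hρ0 j), inv_mul_le_iff₀ (hρ0 j)]
        linarith
      exact pow_le_pow_left₀ (by positivity) h2 2
    · refine Eventually.of_forall fun q => ?_
      have h1 : HasFDerivAt f (fderiv ℝ f q.1) q.1 :=
        (hf.differentiable one_ne_zero q.1).hasFDerivAt
      have h2 : HasDerivAt (fun t : ℝ => f (q.1 + t * cp q.2)) (fderiv ℝ f q.1 (cp q.2)) 0 := by
        have h3 : HasDerivAt (fun t : ℝ => q.1 + t * cp q.2) (cp q.2) 0 := by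
          have h4 : HasDerivAt (fun t : ℝ => (t : ℂ)) 1 0 := Complex.ofRealCLM.hasDerivAt
          simpa using (h4.mul_const (cp q.2)).const_add q.1
        have h5 : HasFDerivAt f (fderiv ℝ f q.1) (q.1 + ((0 : ℝ) : ℂ) * cp q.2) := by
          simpa using h1
        exact h5.comp_hasDerivAt (0 : ℝ) h3
      have h3 := (hasDerivAt_iff_tendsto_slope_zero.1 h2).comp hρt'
      have h4 : Tendsto (fun j => (ρ j)⁻¹ * (f (q.1 + ρ j * cp q.2) - f q.1)) atTop
          (𝓝 (fderiv ℝ f q.1 (cp q.2))) := by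
        refine h3.congr fun j => ?_
        simp
      exact (h4.pow 2).const_mul _
  have hle := le_of_tendsto' hlim hB
  -- the value of the limit
  have hint : Integrable (Function.uncurry fun z θ => b z * (fderiv ℝ f z (cp θ)) ^ 2) PM := by
    refine intP (T := R) ?_ fun z θ hz => by rw [hb0 z hz, zero_mul]
    unfold Function.uncurry
    exact (hbc.comp continuous_fst).mul
      (((hfd.comp continuous_fst).clm_apply (hcp.comp continuous_snd)).pow 2)
  have hval : ∫ q, b q.1 * (fderiv ℝ f q.1 (cp q.2)) ^ 2 ∂PM =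
      π * ∫ z : ℂ, b z * (fderiv ℝ f z 1 ^ 2 + fderiv ℝ f z Complex.I ^ 2) := by
    have h1 : ∫ q, b q.1 * (fderiv ℝ f q.1 (cp q.2)) ^ 2 ∂PM =
        ∫ z : ℂ, ∫ θ in Ioc (0 : ℝ) (2 * π), b z * (fderiv ℝ f z (cp θ)) ^ 2 :=
      integral_prod _ hint
    rw [h1, ← integral_const_mul]
    congr 1
    funext z
    rw [integral_const_mul, integral_cp_sq]
    ring
  rw [hval] at hle
  have hc1 : Continuous fun z : ℂ => b z * (fderiv ℝ f z 1 ^ 2 + fderiv ℝ f z Complex.I ^ 2) :=
    hbc.mul (((hfd.clm_apply continuous_const).pow 2).add ((hfd.clm_apply continuous_const).pow 2))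
  have hi1 : Integrable fun z : ℂ => b z * (fderiv ℝ f z 1 ^ 2 + fderiv ℝ f z Complex.I ^ 2) :=
    hc1.integrable_of_hasCompactSupport b.hasCompactSupport.mul_right
  have hmain : ∫ z in ball (0 : ℂ) r, ‖fderiv ℝ f z‖ ^ 2 ≤
      ∫ z : ℂ, b z * (fderiv ℝ f z 1 ^ 2 + fderiv ℝ f z Complex.I ^ 2) := by
    refine le_trans (setIntegral_mono_on ?_ hi1.integrableOn measurableSet_ball fun z hz => ?_)
      (setIntegral_le_integral hi1 (Eventually.of_forall fun z => ?_))
    · exact ((hfd.norm.pow 2).continuousOn.integrableOn_compact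
        (isCompact_closedBall (0 : ℂ) r)).mono_set ball_subset_closedBall
    · rw [hb1 z hz, one_mul]
      exact norm_sq_le _
    · exact mul_nonneg b.nonneg (by positivity)
  have hπ : 0 < π := Real.pi_pos
  have h1 : π * ∫ z in ball (0 : ℂ) r, ‖fderiv ℝ f z‖ ^ 2 ≤ π * (2 * C * V * M ^ 2) := by
    refine (mul_le_mul_of_nonneg_left hmain hπ.le).trans (hle.trans_eq ?_)
    ring
  exact le_of_mul_le_mul_left h1 hπ

end Vale.Agent.P284.H446.AE
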