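import Vale.Agent.P284.H894.AE.Spec
import Vale.Agent.P284.H427.G11

/-!
# P284, theorem AE (helper446): row AE2
-/

open scoped Manifold ContDiff Topology
open Filter Set Metric MeasureTheory

noncomputable section

namespace Vale.Agent.P284.H446.AE

open Vale.Agent.P272.K Vale.Agent.P284.H248 Vale.Agent.P284.H894 Vale.Agent.P284.H894.G
  Vale.Agent.P284.H894.V Vale.Agent.P284.H894.F Vale.Agent.P284.H446.K Vale.Agent.P284.H409.A
  Vale.Agent.P284.H894.AE Vale.Agent.P284.H427

/-- polar Fubini -/
theorem polar {n : ℕ} {N : Set (Cm n)} (hN : volume N = 0) (a : Cm n) :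
    ∀ᵐ b : Cm n, ∀ᵐ t ∂(volume.restrict (ball (0 : ℂ) 1)), a + t • b ∉ N := by
  set N' : Set (Cm n) := toMeasurable volume N with hN'
  have hm : MeasurableSet N' := measurableSet_toMeasurable _ _
  have h0 : volume N' = 0 := by rw [hN', measure_toMeasurable, hN]
  have hcont : Measurable fun q : ℂ × Cm n => a + q.1 • q.2 :=
    (by fun_prop : Continuous fun q : ℂ × Cm n => a + q.1 • q.2).measurable
  have hms : MeasurableSet {q : ℂ × Cm n | a + q.1 • q.2 ∉ N'} :=
    hcont hm.compl
  have h1 : ∀ᵐ t : ℂ, ∀ᵐ b : Cm n, a + t • b ∉ N' := by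
    have h2 : ∀ᵐ t : ℂ, t ≠ 0 := by
      rw [ae_iff]
      simp
    filter_upwards [h2] with t ht
    rw [ae_iff]
    have h3 : {b : Cm n | ¬ a + t • b ∉ N'} =
        (LinearEquiv.smulOfNeZero ℂ (Cm n) t ht).restrictScalars ℝ ⁻¹' ((fun z => a + z) ⁻¹' N') := by
      ext b
      simp
    rw [h3]
    have h4 := Measure.addHaar_preimage_linearEquiv (volume : Measure (Cm n))
      ((LinearEquiv.smulOfNeZero ℂ (Cm n) t ht).restrictScalars ℝ) ((fun z => a + z) ⁻¹' N')
    rw [measure_preimage_add, h0, mul_zero] at h4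
    exact h4
  have h2 : ∀ᵐ t ∂(volume.restrict (ball (0 : ℂ) 1)), ∀ᵐ b : Cm n, a + t • b ∉ N' :=
    ae_restrict_of_ae h1
  have h3 := (Measure.ae_ae_comm (μ := volume.restrict (ball (0 : ℂ) 1))
    (ν := (volume : Measure (Cm n))) (p := fun t b => a + t • b ∉ N') hms).1 h2
  filter_upwards [h3] with b hb
  filter_upwards [hb] with t ht h
  exact ht (subset_toMeasurable _ _ h)

theorem ae2 : AE2 := by
  intro hAE n X _ _ _ _ E _ p hcov u hu hB U hU hUc A hA C₀ hC₀ hc y hy y' hy'
  obtain ⟨B, hB⟩ := hB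
  refine const_of_loc hUc (fun y hy => ?_) hy hy'
  obtain ⟨h, hyh, hp⟩ := hcov.isLocalHomeomorph y
  set e : Chart n X := chartAt (Cm n) (p y) with he
  have hat : At e (p y) := ⟨chart_mem_atlas _ _, mem_chart_source _ _⟩
  set c : Cm n := e (p y) with hcdef
  -- the points of the chart whose lift is defined and in `U`
  have hWo : IsOpen (h.target ∩ h.symm ⁻¹' U) := h.isOpen_inter_preimage_symm hU
  have hGo : IsOpen (e.target ∩ e.symm ⁻¹' (h.target ∩ h.symm ⁻¹' U)) :=
    e.isOpen_inter_preimage_symm hWo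
  have hsc : h.symm (e.symm c) = y := by
    rw [hcdef, e.left_inv hat.2, hp, h.left_inv hyh]
  have hcG : c ∈ e.target ∩ e.symm ⁻¹' (h.target ∩ h.symm ⁻¹' U) := by
    refine ⟨hat.mem_target, ?_⟩
    rw [mem_preimage, hcdef, e.left_inv hat.2]
    refine ⟨?_, ?_⟩
    · rw [hp]
      exact h.map_source hyh
    · rw [mem_preimage, hp, h.left_inv hyh]
      exact hy
  obtain ⟨R, hR, hball⟩ := Metric.isOpen_iff.1 hGo c hcG
  -- a.e. constant around every point
  have key : ∀ a ∈ ball c (R / 2), ∀ᵐ b : Cm n, ‖b‖ < R / 2 →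
      u (h.symm (e.symm (a + (1 / 2 : ℂ) • b))) = u (h.symm (e.symm a)) := by
    intro a haR
    filter_upwards [polar (hA e hat.1) a] with w hw hwR
    have hin : ∀ t ∈ ball (0 : ℂ) 1, a + t • w ∈ ball c R := by
      intro t ht
      rw [mem_ball, dist_zero_right] at ht
      rw [mem_ball, dist_eq_norm] at haR ⊢
      have h1 : a + t • w - c = (a - c) + t • w := by abel
      rw [h1]
      refine lt_of_le_of_lt (norm_add_le _ _) ?_
      rw [norm_smul]
      have := norm_nonneg w
      nlinarith [norm_nonneg t]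
    have hcont : ∀ t ∈ ball (0 : ℂ) 1, ContinuousAt (fun t : ℂ => h.symm (e.symm (a + t • w))) t := by
      intro t ht
      have h1 := hball (hin t ht)
      refine ContinuousAt.comp (f := fun t : ℂ => e.symm (a + t • w)) (g := h.symm)
        (h.continuousAt_symm h1.2.1) ?_
      exact ContinuousAt.comp (f := fun t : ℂ => a + t • w) (g := e.symm)
        (e.continuousAt_symm h1.1) (by fun_prop)
    have hsub : Sub (fun t : ℂ => u (h.symm (e.symm (a + t • w)))) := by
      refine ⟨fun t ht => UpperSemicontinuousAt.comp (f := u)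
        (g := fun t : ℂ => h.symm (e.symm (a + t • w))) (hu.usc _) (hcont t ht),
        ⟨B, fun t => hB _⟩, ?_⟩
      intro a' ha
      have ha' : ‖a'‖ < 1 := by simpa using ha
      set κ : ℝ := 1 - ‖a'‖ with hκ
      have hκ0 : 0 < κ := by linarith
      have hin' : ∀ t ∈ ball (0 : ℂ) 1, a' + t * κ ∈ ball (0 : ℂ) 1 := by
        intro t ht
        rw [mem_ball, dist_zero_right] at ht ⊢
        have h1 := norm_add_le a' (t * κ)
        rw [norm_mul, Complex.norm_real, Real.norm_eq_abs, abs_of_pos hκ0] at h1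
        nlinarith
      have hd := isDisc_affine (n := n) hp hat.1 (a := a + a' • w) (b := (κ : ℂ) • w) (by
        intro t ht
        have h1 := hball (hin _ (hin' t ht))
        rw [show a + (a' + t * κ) • w = a + a' • w + t • (κ : ℂ) • w by
          rw [add_smul, mul_smul, add_assoc]] at h1
        exact ⟨h1.1, h1.2.1⟩)
      obtain ⟨δ, hδ, hm⟩ := hu.mean _ hd
      refine ⟨δ * κ, mul_pos hδ hκ0, fun ρ hρ => ?_⟩
      have h2 := hm (ρ / κ) ⟨div_pos hρ.1 hκ0, (div_lt_iff₀ hκ0).2 hρ.2⟩
      rw [circleAverage_scale _ _ hκ0.ne']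
      simp only [zero_smul, add_zero] at h2
      refine h2.trans_eq ?_
      congr 1
      ext t
      rw [add_smul, mul_smul, add_assoc]
    have h1 := hAE _ hsub C₀ hC₀ (by
      rw [ae_restrict_iff' measurableSet_ball] at hw ⊢
      filter_upwards [hw] with t ht htb
      have h2 := hball (hin t htb)
      refine hc _ h2.2.2 ?_
      rw [hp, h.right_inv h2.2.1]
      intro hmem
      refine ht htb ⟨e.symm (a + t • w), ⟨hmem, e.map_target h2.1⟩, ?_⟩
      rw [e.right_inv h2.1]) (1 / 2) (by
        rw [mem_ball, dist_zero_right]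
        norm_num)
    simpa using h1
  -- the same with the end point
  have key2 : ∀ a ∈ ball c (R / 2), ∀ᵐ z : Cm n, ‖z - a‖ < R / 4 →
      u (h.symm (e.symm z)) = u (h.symm (e.symm a)) := by
    intro a ha
    have h1 := key a ha
    rw [ae_iff] at h1 ⊢
    set M : Set (Cm n) := {b : Cm n | ¬(‖b‖ < R / 2 →
      u (h.symm (e.symm (a + (1 / 2 : ℂ) • b))) = u (h.symm (e.symm a)))} with hM
    have h2 : {z : Cm n | ¬(‖z - a‖ < R / 4 → u (h.symm (e.symm z)) = u (h.symm (e.symm a)))} =
        (fun z => z + (-a)) ⁻¹'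
          ((LinearEquiv.smulOfNeZero ℂ (Cm n) 2 two_ne_zero).restrictScalars ℝ ⁻¹' M) := by
      ext z
      simp only [mem_ofPred_eq, mem_preimage, hM]
      have e1 : (LinearEquiv.smulOfNeZero ℂ (Cm n) 2 two_ne_zero).restrictScalars ℝ (z + -a) =
          (2 : ℂ) • (z - a) := by
        simp [sub_eq_add_neg]
      rw [e1, norm_smul, smul_smul]
      have e2 : (1 / 2 : ℂ) * 2 = 1 := by norm_num
      have e3 : a + (z - a) = z := by abel
      rw [e2, one_smul, e3]
      have e4 : ‖(2 : ℂ)‖ * ‖z - a‖ < R / 2 ↔ ‖z - a‖ < R / 4 := by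
        rw [Complex.norm_ofNat]
        constructor <;> intro h <;> linarith
      rw [e4]
    rw [h2, measure_preimage_add_right, Measure.addHaar_preimage_linearEquiv, h1, mul_zero]
  -- constant near `c`
  have key3 : ∀ z ∈ ball c (R / 8), u (h.symm (e.symm z)) = u y := by
    intro z hz
    have hz' := hz
    rw [mem_ball, dist_eq_norm] at hz'
    have h1 := key2 z (ball_subset_ball (by linarith) hz)
    have h2 := key2 c (mem_ball_self (by linarith))
    have h3 : 0 < volume (ball c (R / 8)) := measure_ball_pos volume c (by linarith)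
    have h4 : ∃ᶠ x in ae volume, x ∈ ball c (R / 8) := by
      rw [frequently_ae_iff]
      exact h3.ne'
    obtain ⟨x, hx, h5, h6⟩ := (h4.and_eventually (h1.and h2)).exists
    rw [mem_ball, dist_eq_norm] at hx
    have h7 : ‖x - z‖ < R / 4 := by
      have : x - z = (x - c) - (z - c) := by abel
      rw [this]
      exact lt_of_le_of_lt (norm_sub_le _ _) (by linarith)
    rw [← h5 h7, h6 (by linarith), hsc]
  -- points near `y`
  have hcy : ContinuousAt (fun y' => e (p y')) y :=
    ContinuousAt.comp (f := p) (g := e) (e.continuousAt hat.2) hcov.continuous.continuousAt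
  filter_upwards [h.open_source.mem_nhds hyh, hcy.eventually_mem (ball_mem_nhds _ (by positivity : 0 < R / 8)),
    hcov.continuous.continuousAt.eventually_mem (e.open_source.mem_nhds hat.2)] with y' h1 h2 h3
  have h4 := key3 _ h2
  rwa [e.left_inv h3, hp, h.left_inv h1] at h4

end Vale.Agent.P284.H446.AE
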