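import Vale.Agent.P284.H894.AE.Spec
import Vale.Agent.P284.H446.GI

/-!
# P284, theorem AE (helper446): row AE3
-/

open scoped Manifold ContDiff Topology Pointwise
open Filter Set Metric Function MeasureTheory

noncomputable section

namespace Vale.Agent.P284.H446.AE

open Vale.Agent.P272.K Vale.Agent.P284.H248 Vale.Agent.P284.H894 Vale.Agent.P284.H894.G
  Vale.Agent.P284.H894.V Vale.Agent.P284.H894.W Vale.Agent.P284.H913.V Vale.Agent.P284.H409.A
  Vale.Agent.P284.H409.K Vale.Agent.P284.H622 Vale.Agent.P284.H894.F Vale.Agent.P284.H446.K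
  Vale.Agent.P284.H894.AE

section
variable {n : ℕ} {X : Type} [TopologicalSpace X] [T2Space X] [ChartedSpace (Cm n) X]
  [IsManifold 𝓘(ℂ, Cm n) ω X]

/-- the core of `G9`: a finite set of deck transformations which move `y0` inside one component of
`p⁻¹ U` has subexponential growth -/
theorem coreA (hA2 : AE2Concl) (h6 : DropX n X) (E Γ : Type) [TopologicalSpace E] [ConnectedSpace E] [Group Γ]
    [MulAction Γ E] (p : E → X) (hG : IsGalois Γ p) [Countable Γ] (U : Set X) (Q : Set X)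
    (hUo : IsOpen U) (hQ : Q.Countable) (hQU : NullSet n {y ∈ U | ¬ ∃ q ∈ Q, Chain n X y q}) (y0 : E)
    (hy0 : p y0 ∈ U) (S : Set Γ) (hS : S.Finite)
    (hV : ∀ t ∈ S, t • y0 ∈ connectedComponentIn (p ⁻¹' U) y0) : Subexp S := by
  by_contra hexp
  have hlc : LocallyConnectedSpace E := locallyConnected (n := n) hG.cov.isLocalHomeomorph
  have hVo : IsOpen (connectedComponentIn (p ⁻¹' U) y0) :=
    (hUo.preimage hG.cov.continuous).connectedComponentIn
  have hVp : IsPreconnected (connectedComponentIn (p ⁻¹' U) y0) :=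
    isPreconnected_connectedComponentIn
  have hW : (⋂ t ∈ S, (fun y : E => t • y) ⁻¹' connectedComponentIn (p ⁻¹' U) y0) ∈ 𝓝 y0 := by
    rw [biInter_mem hS]
    exact fun t ht => (hG.cont t).continuousAt.preimage_mem_nhds (hVo.mem_nhds (hV t ht))
  obtain ⟨t, ht, u, hu, hu01, y', hy', hlt⟩ := h6 E Γ p hG S hS hexp y0 _ hW
  have hy'V : t • y' ∈ connectedComponentIn (p ⁻¹' U) y0 := by
    have := mem_iInter₂.1 hy' t ht
    exact this
  have hb : ∃ B : ℝ, ∀ y, |u y| ≤ B :=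
    ⟨1, fun y => abs_le.2 ⟨by linarith [(hu01 y).1], (hu01 y).2⟩⟩
  have hfib : (p ⁻¹' Q).Countable := by
    rw [← biUnion_of_singleton Q, preimage_iUnion₂]
    refine hQ.biUnion fun q _ => ?_
    rcases (p ⁻¹' {q}).eq_empty_or_nonempty with h | ⟨z, hz⟩
    · rw [h]; exact countable_empty
    · refine (countable_range fun γ : Γ => γ • z).mono fun z' hz' => ?_
      have h7 : p z = p z' := (mem_singleton_iff.1 hz).trans (mem_singleton_iff.1 hz').symm
      obtain ⟨γ, hγ⟩ := (hG.orb _ _).1 h7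
      exact ⟨γ, hγ⟩
  have hcount : ∀ y ∈ connectedComponentIn (p ⁻¹' U) y0,
      p y ∉ {y ∈ U | ¬ ∃ q ∈ Q, Chain n X y q} → u y ∈ u '' (p ⁻¹' Q) := by
    intro y hy hyA
    have hyU : p y ∈ U := by
      have := connectedComponentIn_subset (p ⁻¹' U) y0 hy
      exact this
    have hex : ∃ q ∈ Q, Chain n X (p y) q := by
      by_contra hcon
      exact hyA ⟨hyU, hcon⟩
    obtain ⟨q, hq, hch⟩ := hex
    obtain ⟨z, hz, huz⟩ := H622.g8Stmt H427.g7Stmt n X E p hG.cov hG.surj y q hch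
    exact ⟨z, by show p z ∈ Q; rw [hz]; exact hq, huz u hu hb⟩
  have hmem : y0 ∈ connectedComponentIn (p ⁻¹' U) y0 := mem_connectedComponentIn hy0
  have h9 := hA2 n X E p hG.cov u hu hb _ hVo hVp _ hQU _ (hfib.image u) hcount y0 hmem _ hy'V
  linarith

end

/-- growth of the image, for one manifold -/
theorem growth_imgA' (hA2 : AE2Concl) {n : ℕ} {X : Type} [TopologicalSpace X] [T2Space X] [CompactSpace X]
    [ConnectedSpace X] [ChartedSpace (Cm n) X] [IsManifold 𝓘(ℂ, Cm n) ω X]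
    (h6 : DropX n X) (hcnt : ∀ (E Γ : Type) [TopologicalSpace E] [ConnectedSpace E] [Group Γ]
      [MulAction Γ E] (p : E → X), IsGalois Γ p → Countable Γ)
    (U : Set X) (x : X) (hx : x ∈ U) (Q : Set X) (hUo : IsOpen U) (hQ : Q.Countable)
    (hQU : NullSet n {y ∈ U | ¬ ∃ q ∈ Q, Chain n X y q}) : SubexpGrowth (img U x hx) := by
  obtain ⟨N, hN⟩ := Vale.Agent.P300.H673.exists_openEmbedding (Cm n) X
  obtain ⟨Y, Γ, tY, gΓ, aΓ, π, hsc, ht2, hcont, hfree, hcov, hsurj, horb⟩ :=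
    Vale.Agent.P223.X.U.main N X hN
  have hcont' : ∀ γ : Γ, Continuous fun y : Y => γ • y := hcont
  have q := Vale.Agent.P223.R2.H968.Lift.quot π hcont hfree hcov hsurj horb
  obtain ⟨y0, rfl⟩ := hsurj x
  set e : FundamentalGroup X (π y0) ≃* Γᵐᵒᵖ :=
    q.fundamentalGroupEquiv (⟨y0, rfl⟩ : π ⁻¹' {π y0}) with he
  have hG : IsGalois Γ (π : Y → X) := ⟨hcov, hsurj, hcont', hfree, horb⟩
  have : Countable Γ := hcnt Y Γ π hG
  intro S hS
  set f : img U (π y0) hx →* Γᵐᵒᵖ := e.toMonoidHom.comp (img U (π y0) hx).subtype with hf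
  have hfi : Function.Injective f := e.injective.comp Subtype.val_injective
  refine H622.subexp_of_image f hfi ?_
  refine subexp_op ?_
  refine coreA hA2 h6 Y Γ π hG U Q hUo hQ hQU y0 hx _ ((hS.image _).image _) ?_
  rintro _ ⟨_, ⟨s, hs, rfl⟩, rfl⟩
  obtain ⟨c, hcU, hc⟩ := exists_loop s.2
  have h1 : (MulOpposite.unop (f s)) • y0 =
      (q.isCoveringMap.monodromy (s : FundamentalGroup X (π y0)) ⟨y0, rfl⟩ : Y) :=
    q.unop_fundamentalGroupToMulOpposite_smul
  rw [h1, hc]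
  exact mem_of_loop q.isCoveringMap c hcU

/-- **AE3** -/
theorem ae3 : AE3 := by
  intro hA2 n X _ _ _ _ _ _ w hw U Q x hx hUo hQ hQU
  refine growth_imgA' hA2 (n := n) (fun E Γ _ _ _ _ p hG => kg6All0 n X w hw E Γ p hG) ?_ U x hx Q
    hUo hQ hQU
  intro E Γ _ _ _ _ p hG
  obtain ⟨C, -⟩ := H35.A9.exists_shsK n X w hw E Γ p hG
  exact H977.K.countable_of_fg (H35.W.coc_fg C)

end Vale.Agent.P284.H446.AE
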